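import Vale.Agent.Lib.P123.Quad

open Polynomial

/-- Crouzeix's conjecture for all polynomials of degree at most two, on every complex Hilbert space:
if `|P|` is at most `M` on the numerical range of `A`, then `‖P(A)‖ ≤ 2 M`. The problem's `⟨A x, x⟩`
is `inner ℂ x (A x)`. -/
theorem Vale.Agent.Results.P123.A_degree_two.result {H : Type*} [NormedAddCommGroup H]
    [InnerProductSpace ℂ H] [CompleteSpace H] (A : H →L[ℂ] H) (P : ℂ[X]) (hP : P.natDegree ≤ 2)
    (M : ℝ) (hM : 0 ≤ M) (hW : ∀ x : H, ‖x‖ = 1 → ‖P.eval (inner ℂ x (A x))‖ ≤ M) :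
    ‖aeval A P‖ ≤ 2 * M :=
  Vale.Agent.Lib.P123.crouzeix_degree_two A P hP M hM hW
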