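import Vale.Agent.Lib.P123.Main

open Polynomial ComplexConjugate

/-- Crouzeix's inequality for polynomials with a convex lemniscate, for quadratics with a connected
lemniscate, and a tangential criterion in three directions for every degree. The problem's
`⟨A x, x⟩` is `inner ℂ x (A x)`. -/
theorem Vale.Agent.Results.P123.A_main.result {H : Type*} [NormedAddCommGroup H]
    [InnerProductSpace ℂ H] (A : H →L[ℂ] H) :
    -- (1) convex lemniscates: numerical radius and norm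
    (∀ (p : ℂ[X]) (M : ℝ), 0 < p.natDegree → 0 < M → Convex ℝ {z : ℂ | ‖p.eval z‖ ≤ M} →
      (∀ x : H, ‖x‖ = 1 → ‖p.eval (inner ℂ x (A x))‖ ≤ M) →
      (∀ x : H, ‖x‖ = 1 → ‖inner ℂ x ((aeval A p) x)‖ ≤ M) ∧ ‖aeval A p‖ ≤ 2 * M) ∧
    -- (2) quadratics: the condition only involves the critical value
    (∀ (P : ℂ[X]) (z₀ : ℂ) (M : ℝ), P.natDegree = 2 → P.derivative.eval z₀ = 0 → 0 < M →
      (∀ x : H, ‖x‖ = 1 → ‖P.eval (inner ℂ x (A x))‖ ≤ M) →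
      (‖P.eval z₀‖ ≤ M → ‖aeval A P‖ ≤ 2 * M) ∧
      (2 * ‖P.eval z₀‖ ≤ M → ∀ x : H, ‖x‖ = 1 → ‖inner ℂ x ((aeval A P) x)‖ ≤ M)) ∧
    -- (3) every degree: tangent half-planes at the preimages of three equally spaced points
    (∀ (p : ℂ[X]) (M : ℝ) (c₀ c₁ c₂ : ℂ), 0 < p.natDegree → 0 < M →
      ‖c₀‖ = 1 → ‖c₁‖ = 1 → ‖c₂‖ = 1 → c₀ + c₁ + c₂ = 0 → c₀ ^ 2 + c₁ ^ 2 + c₂ ^ 2 = 0 →
      (∀ k : Fin 3, ∀ σ, p.eval σ = (M : ℂ) * ![c₀, c₁, c₂] k → p.derivative.eval σ ≠ 0) →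
      (∀ k : Fin 3, ∀ σ, p.eval σ = (M : ℂ) * ![c₀, c₁, c₂] k → ∀ x : H, ‖x‖ = 1 →
        0 ≤ (conj (![c₀, c₁, c₂] k) * p.derivative.eval σ * (σ - inner ℂ x (A x))).re) →
      ‖aeval A p‖ ≤ 2 * M) := by
  refine ⟨fun p M hp hM hconv hW => ?_, fun P z₀ M hP hc hM hW => ?_,
    fun p M c₀ c₁ c₂ hp hM h0 h1 h2 hs hs2 hsimple hhalf => ?_⟩
  · have h1 : ∀ x : H, ‖inner ℂ x ((aeval A p) x)‖ ≤ M * ‖x‖ ^ 2 :=
      Vale.Agent.Lib.P123.convex_lemniscate A p M hp hM hconv hW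
    refine ⟨fun x hx => by simpa [hx] using h1 x, ?_⟩
    obtain ⟨ω, hω, hω1, -, -⟩ := Vale.Agent.Lib.P123.exists_omega
    refine Vale.Agent.Lib.P123.opNorm_le_of_three_directions _ M hM.le 1 ω (ω ^ 2) (by simp) hω
      (by rw [norm_pow, hω]; simp) hω1 (by linear_combination (ω ^ 2 - ω + 1) * hω1) fun k x => ?_
    have hk : ‖![(1 : ℂ), ω, ω ^ 2] k‖ = 1 := by
      fin_cases k
      · simp
      · exact hω
      · simp [hω]
    calc _ ≤ ‖conj (![(1 : ℂ), ω, ω ^ 2] k) * inner ℂ x ((aeval A p) x)‖ := Complex.re_le_norm _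
      _ = ‖inner ℂ x ((aeval A p) x)‖ := by rw [norm_mul, RCLike.norm_conj, hk, one_mul]
      _ ≤ _ := h1 x
  · refine ⟨Vale.Agent.Lib.P123.quad_norm A P z₀ M hP hc hM hW, fun hv x hx => ?_⟩
    simpa [hx] using Vale.Agent.Lib.P123.quad_radius A P z₀ M hP hc hM hW hv x
  · exact Vale.Agent.Lib.P123.three_direction_general A p M hp hM c₀ c₁ c₂ h0 h1 h2 hs hs2 hsimple
      hhalf
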