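import Vale.Agent.Lib.P123.Pg21

open scoped InnerProductSpace

namespace Vale.Agent.Results.P123.A_uniform

/-- There is a universal constant strictly below `1 + √2` in the Crouzeix inequality. The inner
product of Mathlib is conjugate linear in the first variable, so `⟪x, A x⟫_ℂ` is the point
`⟨A x, x⟩` of the numerical range in the convention of the problem. -/
theorem result.{u} : ∃ C : ℝ, C < 1 + Real.sqrt 2 ∧ ∀ (H : Type u) [NormedAddCommGroup H]
    [InnerProductSpace ℂ H] [CompleteSpace H] (A : H →L[ℂ] H) (p : Polynomial ℂ) (M : ℝ), 0 ≤ M →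
    (∀ x : H, ‖x‖ = 1 → ‖p.eval ⟪x, A x⟫_ℂ‖ ≤ M) → ‖Polynomial.aeval A p‖ ≤ C * M :=
  Vale.Agent.Lib.P123.strict_bound

end Vale.Agent.Results.P123.A_uniform
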